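import Vale.Agent.P011.D4X.H69.Path
import Vale.Agent.P011.D4Y.H69.Path

/-!
Block D4Y: chains of singular elements, stable under the semilinear involution, which end at an
element near a given one.
-/

open Filter Topology
open scoped ComplexConjugate

namespace Vale.Agent.P011.D4Y

open Vale.Agent.P011.MPQ Vale.Agent.P011.D4 Vale.Agent.P011.D4.Oct Vale.Agent.P011.D4X

section

variable {k E : Type} [Field k] [Field E] [Algebra k E] {a b c : kˣ} {ρ σ ι : E ≃ₐ[k] E}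

theorem invo_neg (x : OctL E a b c) : invo ι (-x) = -invo ι x := by
  have h := invo_smul (ι := ι) (-1 : E) x
  rwa [neg_one_smul, map_neg, map_one, neg_one_smul] at h

theorem invo_uu {p u0 v : OctL E a b c} (hp : invo ι p = -p) (hu : invo ι u0 = -u0)
    (hv : invo ι v = -v) : invo ι (uu p u0 v) = -uu p u0 v := by
  have h1 : ∀ x : OctL E a b c, invo ι x = -x → ι (bil x v) = bil x v := fun x hx => by
    rw [← bil_invo, hx, hv, bil_neg_left, bil_comm, bil_neg_left, bil_comm, neg_neg]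
  rw [uu, sub_eq_add_neg, invo_add, invo_neg, invo_smul, invo_smul, h1 p hp, h1 u0 hu, hp, hu,
    smul_neg, smul_neg, neg_neg, neg_add, neg_neg]

/-- The second point of the chain. -/
def zI (ρ ι : E ≃ₐ[k] E) (r : E) (p u0 v : OctL E a b c) : OctL E a b c :=
  r • zz ρ p u0 v - invo ι (r • zz ρ p u0 v)

theorem invo_zI (hι : ∀ m, ι (ι m) = m) (r : E) (p u0 v : OctL E a b c) :
    invo ι (zI ρ ι r p u0 v) = -zI ρ ι r p u0 v := by
  rw [zI, sub_eq_add_neg, invo_add, invo_neg, invo_invo hι]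
  abel

theorem chainI (hρ : ∀ m, ρ (ρ (ρ m)) = m) (hι : ∀ m, ι (ι m) = m)
    (hιρ : ∀ m, ι (ρ m) = ρ (ρ (ι m))) (r : E) {p u0 v : OctL E a b c} (hp : Pt ρ p)
    (hu : Pt ρ u0) (hpI : invo ι p = -p) (huI : invo ι u0 = -u0) (hpu : Nb ρ p u0)
    (hne : ∀ t : E, u0 ≠ t • p) (hv : Pt ρ v) (hvI : invo ι v = -v) (hpv : bil p v ≠ 0)
    (hz : zI ρ ι r p u0 v ≠ 0) : Pt ρ (uu p u0 v) ∧ invo ι (uu p u0 v) = -uu p u0 v ∧
      Pt ρ (zI ρ ι r p u0 v) ∧ invo ι (zI ρ ι r p u0 v) = -zI ρ ι r p u0 v ∧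
      Nb ρ p (uu p u0 v) ∧ Nb ρ (uu p u0 v) (zI ρ ι r p u0 v) ∧ Nb ρ (zI ρ ι r p u0 v) v := by
  have hzz : zz ρ p u0 v ≠ 0 := by
    intro h0
    apply hz
    rw [zI, h0, smul_zero]
    have h3 := invo_smul (ι := ι) (0 : E) (0 : OctL E a b c)
    rw [zero_smul, map_zero, zero_smul] at h3
    rw [h3, sub_zero]
  obtain ⟨hU, -, n1, m2, m3⟩ := chain hρ hp hu hpu hne hv hpv hzz
  have hUI := invo_uu hpI huI hvI
  have hb : bil (uu p u0 v) v = 0 := by
    rw [uu, sub_eq_add_neg, ← neg_smul, bil_add_left, bil_smul_left, bil_smul_left]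
    ring
  generalize hue : uu p u0 v = u at *
  have hze : zz ρ p u0 v = tri ρ u v := by rw [zz, hue]
  rw [hze] at m2 m3
  have e : invo ι (tri ρ u v) = tri ρ v u := by
    rw [invo_tri hρ hιρ, hUI, hvI, tri_neg_left, tri_neg_right, neg_neg]
  obtain ⟨m1, -, -⟩ := mid hρ hU hv hb
  obtain ⟨m4, m5, m6⟩ := mid hρ hv hU (by rw [bil_comm]; exact hb)
  have c1 : tri ρ (tri ρ u v) (tri ρ v u) = 0 := by
    have h5 := polar1 hρ u v (tri ρ v u)
    have h6 : Oct.bil u (tri ρ v u) = 0 := by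
      rw [bil_comm, bil_tri hρ, hU.2, bil_zero_left, map_zero]
    rwa [Orb.tri_tri hρ, hv.norm hρ, map_zero, map_zero, zero_smul, tri_zero_left, add_zero, h6,
      map_zero, map_zero, zero_smul] at h5
  have c2 : tri ρ (tri ρ v u) (tri ρ u v) = 0 := by
    have h5 := polar1 hρ v u (tri ρ u v)
    have h6 : Oct.bil v (tri ρ u v) = 0 := by
      rw [bil_comm, bil_tri hρ, hv.2, bil_zero_left, map_zero]
    rwa [Orb.tri_tri hρ, hU.norm hρ, map_zero, map_zero, zero_smul, tri_zero_left, add_zero, h6,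
      map_zero, map_zero, zero_smul] at h5
  have ez : zI ρ ι r p u0 v = r • tri ρ u v + (-ι r) • tri ρ v u := by
    rw [zI, hze, invo_smul, e, neg_smul, sub_eq_add_neg]
  refine ⟨hU, hUI, ⟨hz, ?_⟩, invo_zI hι r p u0 v, n1, ?_, ?_⟩
  · rw [ez]
    simp only [tri_add_left, tri_add_right, tri_smul_left, tri_smul_right, m1, m4, c1, c2,
      smul_zero, add_zero]
  · rw [ez]
    exact (m2.smul _).add (m6.symm.smul _)
  · rw [ez]
    exact ((m3.symm.smul _).add (m5.smul _)).symm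

variable {L : Type} [Field L] [Algebra L E] {α : E} {q : Lˣ}

/-- **Chains which end near a given element**, stable under the semilinear involution. -/
theorem path_nearI {S : Set (E →+* ℂ)} (hS : S.Finite) (hne : S.Nonempty)
    (hρS : ∀ w ∈ S, w.comp (ρ : E →+* E) ∈ S) (hσS : ∀ w ∈ S, w.comp (σ : E →+* E) ∈ S)
    (hιS : ∀ w ∈ S, w.comp (ι : E →+* E) ∈ S) (hρ : ∀ m, ρ (ρ (ρ m)) = m)
    (hι : ∀ m, ι (ι m) = m) (hιρ : ∀ m, ι (ρ m) = ρ (ρ (ι m))) (r : E)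
    {p u0 v0 : OctL E a b c} (hp : Pt ρ p) (hpI : invo ι p = -p) (hu : Pt ρ u0)
    (huI : invo ι u0 = -u0) (hpu : Nb ρ p u0) (hpt : ∀ t : E, u0 ≠ t • p) (hpv : bil p v0 ≠ 0)
    (h0 : bil v0 (Jm ρ σ α q v0) ≠ 0)
    (h1 : ∀ W ∈ S, 0 < (W (bil (uu p u0 v0) (Jm ρ σ α q (uu p u0 v0)) /
      bil v0 (Jm ρ σ α q v0))).re)
    (h2 : ∀ W ∈ S, 0 < (W (bil (zI ρ ι r p u0 v0) (Jm ρ σ α q (zI ρ ι r p u0 v0)) /
      bil v0 (Jm ρ σ α q v0))).re) :
    ∀ᶠ v in nh S v0, Pt ρ v → invo ι v = -v → ∃ u z, Pt ρ u ∧ invo ι u = -u ∧ Pt ρ z ∧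
      invo ι z = -z ∧ Nb ρ p u ∧ Nb ρ u z ∧ Nb ρ z v ∧
      ∀ W ∈ S, 0 < (W (bil u (Jm ρ σ α q u) / bil v0 (Jm ρ σ α q v0))).re ∧
        0 < (W (bil z (Jm ρ σ α q z) / bil v0 (Jm ρ σ α q v0))).re ∧
        0 < (W (bil v (Jm ρ σ α q v) / bil v0 (Jm ρ σ α q v0))).re := by
  have ci := TO_id S v0
  obtain ⟨cu, cz'⟩ := zz_cont hρS ci p u0
  have cz : TO S (nh S v0) (fun v => zI ρ ι r p u0 v) (zI ρ ι r p u0 v0) :=
    (TO.smul (TE.const _ _ r) cz').sub ((TO.smul (TE.const _ _ r) cz').invo hιS)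
  have cJ : ∀ {f : OctL E a b c → OctL E a b c} {x : OctL E a b c}, TO S (nh S v0) f x →
      TE S (nh S v0) (fun v => bil (f v) (Jm ρ σ α q (f v)) / bil v0 (Jm ρ σ α q v0))
        (bil x (Jm ρ σ α q x) / bil v0 (Jm ρ σ α q v0)) := fun hf =>
    (hf.bil (hf.Jm hσS)).div (TE.const _ _ _) h0
  have e1 := (cJ cu).eventually_pos hS h1
  have e2 := (cJ cz).eventually_pos hS h2
  have e3 := (cJ ci).eventually_pos hS (by
    intro W _
    rw [div_self h0, map_one, Complex.one_re]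
    exact one_pos)
  have e4 := ((TO.const S (nh S v0) p).bil ci).eventually_ne hne hpv
  filter_upwards [e1, e2, e3, e4] with v g1 g2 g3 g4 hv hvI
  have g5 : zI ρ ι r p u0 v ≠ 0 := by
    intro e
    obtain ⟨W, hW⟩ := hne
    have h3 := g2 W hW
    rw [e, bil_zero_left, zero_div, map_zero, Complex.zero_re] at h3
    exact lt_irrefl _ h3
  obtain ⟨c1, c2, c3, c4, c5, c6, c7⟩ := chainI hρ hι hιρ r hp hu hpI huI hpu hpt hv hvI g4 g5
  exact ⟨uu p u0 v, zI ρ ι r p u0 v, c1, c2, c3, c4, c5, c6, c7,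
    fun W hW => ⟨g1 W hW, g2 W hW, g3 W hW⟩⟩

theorem tendsto_nh_of {S : Set (E →+* ℂ)} {X : Type} {F : Filter X} {f : X → OctL E a b c}
    {x : OctL E a b c} (h : TO S F f x) : Tendsto f F (nh S x) := by
  rw [nh, tendsto_comap_iff, tendsto_pi_nhds]
  rintro ⟨⟨w, hw⟩, i⟩
  obtain ⟨⟨h1, h2, h3, h4⟩, h5, h6, h7, h8⟩ := h
  fin_cases i
  · exact h1 w hw
  · exact h2 w hw
  · exact h3 w hw
  · exact h4 w hw
  · exact h5 w hw
  · exact h6 w hw
  · exact h7 w hw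
  · exact h8 w hw

theorem exists_fixed' [NeZero (2 : E)] (hι : ∀ m, ι (ι m) = m) {δ : E} (hδ : δ ≠ 0)
    (hδι : ι δ = -δ) {v : OctL E a b c} (hv : v ≠ 0) {μ : E} (hμ : invo ι v = μ • v) :
    ∃ s : E, s ≠ 0 ∧ invo ι (s • v) = s • v := by
  have h1 : ι μ * μ = 1 := by
    have h2 : invo ι (invo ι v) = v := invo_invo hι v
    rw [hμ, invo_smul, hμ, smul_smul] at h2
    have h3 : (ι μ * μ - 1) • v = 0 := by rw [sub_smul, h2, one_smul, sub_self]
    exact sub_eq_zero.1 ((smul_eq_zero.1 h3).resolve_right hv)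
  by_cases h2 : 1 + μ = 0
  · refine ⟨δ, hδ, ?_⟩
    rw [invo_smul, hμ, hδι, smul_smul]
    congr 1
    linear_combination (-δ) * h2
  · refine ⟨1 + μ, h2, ?_⟩
    rw [invo_smul, hμ, smul_smul, map_add, map_one]
    congr 1
    linear_combination h1

/-- **The stable singular elements near a given one**, from the step lemma and a chain. -/
theorem near_genI_of [NeZero (2 : E)] {S : Set (E →+* ℂ)} (hS : S.Finite)
    (hρS : ∀ w ∈ S, w.comp (ρ : E →+* E) ∈ S) (hσS : ∀ w ∈ S, w.comp (σ : E →+* E) ∈ S)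
    (hιS : ∀ w ∈ S, w.comp (ι : E →+* E) ∈ S) (hσ : ∀ W ∈ S, ∀ x, W (σ x) = conj (W x))
    (hρ : ∀ m, ρ (ρ (ρ m)) = m) (hι : ∀ m, ι (ι m) = m)
    (hιρ : ∀ m, ι (ρ m) = ρ (ρ (ι m))) {δ : E} (hδ : δ ≠ 0) (hδι : ι δ = -δ)
    (fix : ∀ v : OctL E a b c, σ (bil v (Jm ρ σ α q v)) = bil v (Jm ρ σ α q v))
    (smul : ∀ (t : E) (v : OctL E a b c),
      bil (t • v) (Jm ρ σ α q (t • v)) = t * σ t * bil v (Jm ρ σ α q v))
    {P : OctL E a b c → Prop} (hsm : ∀ t : E, t ≠ 0 → ∀ v, P v → P (t • v))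
    (step : ∀ v v' : OctL E a b c, Pt ρ v → (∃ μ : E, invo ι v = μ • v) → Pt ρ v' →
      (∃ μ : E, invo ι v' = μ • v') → Nb ρ v v' →
      (∀ W ∈ S, 0 < (W (bil v' (Jm ρ σ α q v') / bil v (Jm ρ σ α q v))).re) → P v → P v')
    {p u0 z0 v0 : OctL E a b c} (hp : Pt ρ p) (hpI : invo ι p = -p) (hu : Pt ρ u0)
    (huI : invo ι u0 = -u0) (hpu : Nb ρ p u0) (hpt : ∀ t : E, u0 ≠ t • p)
    (hpv : bil p v0 ≠ 0) (hv0I : invo ι v0 = -v0) (huv : bil u0 v0 = 0) {s : E} (hs : s ≠ 0)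
    (hz : tri ρ u0 v0 = s • z0) (hz0I : invo ι z0 = -z0) (h0 : bil v0 (Jm ρ σ α q v0) ≠ 0)
    (h1 : ∀ W ∈ S, 0 < (W (bil p (Jm ρ σ α q p) / bil v0 (Jm ρ σ α q v0))).re)
    (h2 : ∀ W ∈ S, 0 < (W (bil u0 (Jm ρ σ α q u0) / bil v0 (Jm ρ σ α q v0))).re)
    (h3 : ∀ W ∈ S, 0 < (W (bil z0 (Jm ρ σ α q z0) / bil v0 (Jm ρ σ α q v0))).re)
    (hP : P p) : ∀ᶠ v in nh S v0, Pt ρ v → (∃ μ : E, invo ι v = μ • v) → P v := by
  have h2' : (2 : E) ≠ 0 := NeZero.ne _
  have hne1 : ∀ {x : OctL E a b c}, invo ι x = x → ∃ μ : E, invo ι x = μ • x := fun {x} hx =>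
    ⟨1, by rw [one_smul, hx]⟩
  have hne2 : ∀ {x : OctL E a b c}, invo ι x = -x → ∃ μ : E, invo ι x = μ • x := fun {x} hx =>
    ⟨-1, by rw [neg_one_smul, hx]⟩
  rcases S.eq_empty_or_nonempty with he | hN
  · refine Eventually.of_forall fun v hv => ?_
    rintro ⟨μ, hμ⟩
    have e : ∀ x : E, ∀ W ∈ S, 0 < (W x).re := fun x W hW => by
      rw [he] at hW
      exact absurd hW (Set.notMem_empty W)
    obtain ⟨t, ht, htv⟩ := exists_fixed' hι hδ hδι hv.1 hμ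
    have hd : ∀ x : OctL E a b c, invo ι x = -x → invo ι (δ • x) = δ • x := fun x hx => by
      rw [invo_smul, hδι, hx, smul_neg, neg_smul, neg_neg]
    obtain ⟨u, z, g1, g2, g3, g4, g5, g6, g7⟩ := path hρ hι hιρ ⟨δ, hδ, hδι⟩ (hp.smul hδ)
      (hv.smul ht) (hd p hpI) htv ⟨δ • u0, hu.smul hδ, hd u0 huI,
        ((hpu.smul δ).symm.smul δ).symm, fun r hr => hpt r (by
          rw [smul_smul, mul_comm, ← smul_smul] at hr
          exact smul_right_injective _ hδ hr)⟩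
    have k1 := step _ u (hp.smul hδ) (hne1 (hd p hpI)) g1 (hne1 g2) g5 (e _) (hsm δ hδ p hP)
    have k2 := step u z g1 (hne1 g2) g3 (hne1 g4) g6 (e _) k1
    have k3 := step z _ g3 (hne1 g4) (hv.smul ht) (hne1 htv) g7 (e _) k2
    have k4 := hsm t⁻¹ (inv_ne_zero ht) _ k3
    rwa [smul_smul, inv_mul_cancel₀ ht, one_smul] at k4
  · have nrm : ∀ W ∈ S, ∀ {t : E}, t ≠ 0 → ∀ {x y : E}, 0 < (W (x / y)).re →
        0 < (W (t * σ t * x / y)).re := by
      intro W hW t ht x y h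
      rw [mul_div_assoc, map_mul, map_mul, hσ W hW t, Complex.mul_conj, Complex.re_ofReal_mul]
      exact mul_pos (Complex.normSq_pos.2 ((map_ne_zero W).2 ht)) h
    have ratio : ∀ W ∈ S, ∀ {x y z : E}, σ x = x → σ y = y → σ z = z → 0 < (W (x / z)).re →
        0 < (W (y / z)).re → 0 < (W (x / y)).re := by
      intro W hW x y z hx hy hz h1 h2
      have hz0 : z ≠ 0 := by
        rintro rfl
        rw [div_zero, map_zero, Complex.zero_re] at h1
        exact lt_irrefl _ h1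
      have im0 : ∀ {t : E}, σ t = t → (W t).im = 0 := by
        intro t ht
        have h3 := hσ W hW t
        rw [ht] at h3
        exact Complex.conj_eq_iff_im.1 h3.symm
      have e : x / y = (x / z) / (y / z) := by
        rw [div_div_div_cancel_right₀ hz0]
      have i1 : (W (x / z)).im = 0 := im0 (by rw [map_div₀, hx, hz])
      have i2 : (W (y / z)).im = 0 := im0 (by rw [map_div₀, hy, hz])
      have e1 : W (x / z) = ((W (x / z)).re : ℂ) :=
        Complex.ext rfl (by rw [i1, Complex.ofReal_im])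
      have e2 : W (y / z) = ((W (y / z)).re : ℂ) :=
        Complex.ext rfl (by rw [i2, Complex.ofReal_im])
      rw [e, map_div₀, e1, e2, ← Complex.ofReal_div, Complex.ofReal_re]
      exact div_pos h1 h2
    have hb : ρ (bil p v0) ≠ 0 := (map_ne_zero ρ).2 hpv
    obtain ⟨r, hr⟩ : ∃ r : E, r = (ρ (bil p v0) * s)⁻¹ := ⟨_, rfl⟩
    have ez : zI ρ ι r p u0 v0 = (2 : E) • z0 := by
      have e3 : r • zz ρ p u0 v0 = z0 := by
        rw [zz_of huv, hz, smul_smul, smul_smul, hr, mul_assoc, inv_mul_cancel₀ (mul_ne_zero hb hs),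
          one_smul]
      rw [zI, e3, hz0I, sub_neg_eq_add, two_smul]
    have e1 : ∀ W ∈ S, 0 < (W (bil (uu p u0 v0) (Jm ρ σ α q (uu p u0 v0)) /
        bil v0 (Jm ρ σ α q v0))).re := by
      intro W hW
      rw [uu_of huv, smul]
      exact nrm W hW hpv (h2 W hW)
    have e2 : ∀ W ∈ S, 0 < (W (bil (zI ρ ι r p u0 v0) (Jm ρ σ α q (zI ρ ι r p u0 v0)) /
        bil v0 (Jm ρ σ α q v0))).re := by
      intro W hW
      rw [ez, smul]
      exact nrm W hW h2' (h3 W hW)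
    have h4 := path_nearI hS hN hρS hσS hιS hρ hι hιρ r hp hpI hu huI hpu hpt hpv h0 e1 e2
    -- the projection to the eigenspace
    have cf : TO S (nh S v0) (fun v => (1 / 2 : E) • (v - invo ι v)) v0 := by
      have c1 := TO.smul (TE.const S (nh S v0) (1 / 2 : E)) ((TO_id S v0).sub ((TO_id S v0).invo hιS))
      have c2 : (1 / 2 : E) • (v0 - invo ι v0) = v0 := by
        rw [hv0I, sub_neg_eq_add, ← two_smul E v0, smul_smul, one_div,
          inv_mul_cancel₀ h2', one_smul]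
      rwa [c2] at c1
    have h5 := (tendsto_nh_of cf).eventually h4
    have h6 := (cf.bil (cf.Jm (ρ := ρ) (α := α) (q := q) hσS)).eventually_ne hN h0
    filter_upwards [h5, h6] with v g5 g6 hv hvI
    obtain ⟨μ, hμ⟩ := hvI
    obtain ⟨y, hy⟩ : ∃ y, y = (1 / 2 : E) • (v - invo ι v) := ⟨_, rfl⟩
    have hyv : y = ((1 / 2 : E) * (1 - μ)) • v := by
      rw [hy, hμ, ← smul_smul, sub_smul, one_smul]
    rw [← hy] at g5 g6
    have hy0 : y ≠ 0 := by
      intro h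
      apply g6
      rw [h, bil_zero_left]
    have ht : (1 / 2 : E) * (1 - μ) ≠ 0 := by
      intro h
      apply hy0
      rw [hyv, h, zero_smul]
    have hyI : invo ι y = -y := by
      rw [hy, invo_smul, sub_eq_add_neg, invo_add, invo_neg, invo_invo hι, map_div₀, map_one,
        map_ofNat, ← smul_neg, neg_add, neg_neg, add_comm]
    have hyP : Pt ρ y := by
      rw [hyv]
      exact hv.smul ht
    obtain ⟨u, z, c1, c1I, c2, c2I, c3, c4, c5, c6⟩ := g5 hyP hyI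
    have k1 := step p u hp (hne2 hpI) c1 (hne2 c1I) c3
      (fun W hW => ratio W hW (fix u) (fix p) (fix v0) (c6 W hW).1 (h1 W hW)) hP
    have k2 := step u z c1 (hne2 c1I) c2 (hne2 c2I) c4
      (fun W hW => ratio W hW (fix z) (fix u) (fix v0) (c6 W hW).2.1 (c6 W hW).1) k1
    have k3 := step z y c2 (hne2 c2I) hyP (hne2 hyI) c5
      (fun W hW => ratio W hW (fix y) (fix z) (fix v0) (c6 W hW).2.2 (c6 W hW).2.1) k2
    have k4 := hsm _ (inv_ne_zero ht) _ k3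
    rwa [hyv, smul_smul, inv_mul_cancel₀ ht, one_smul] at k4

end

end Vale.Agent.P011.D4Y
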