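import Vale.Agent.P011.D4X.H862.BaseX
import Vale.Agent.P011.D4Y.H657.Bas
import Vale.Agent.P011.D4Y.H691.Tr
import Vale.Agent.P011.D4Y.H408.PathI

/-!
Block D4Y: the base chain, stable under the semilinear involution.
-/

open NumberField
open Vale.Agent.P011.MPQ Vale.Agent.P011.D4 Vale.Agent.P011.D4.Oct Vale.Agent.P011.D4.H24
open Vale.Agent.P011.E6 Vale.Agent.P011.D4X Vale.Agent.P011.D4X.H691 Vale.Agent.P011.D4X.H862

set_option linter.unusedSectionVars false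

namespace Vale.Agent.P011.D4Y.H408

variable {k L E : Type} [Field k] [Field L] [Field E] [Algebra k L] [Algebra k E]
  [Algebra L E] [IsScalarTower k L E] [NeZero (2 : E)] {ρ σ ι : E ≃ₐ[k] E} {α : E}
  {a b c : kˣ} {q : Lˣ}

omit [NeZero (2 : E)] in
theorem isKap_one {z : OctL E a b c ≃ₗ[E] OctL E a b c} (h : IsKapI ρ z (1 : Lˣ)) :
    IsKap ρ z (1 : Lˣ) := fun x y => by
  have h1 := h x y
  rw [Units.val_one, map_one, map_one] at h1
  rw [Units.val_one, map_one]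
  exact h1

omit [NeZero (2 : E)] in
theorem hh_one (hρ : ∀ x, ρ (ρ (ρ x)) = x) (z : ATI ρ σ ι α a b c q)
    (h : IsKapI ρ z.1 (1 : Lˣ)) (v : OctL E a b c) : hh ρ σ α q (z.1 v) = hh ρ σ α q v := by
  have h1 := bil_kap hρ (isKap_one h) v (Jm ρ σ α q v)
  rw [Units.val_one, map_one, map_one, map_one, one_mul, one_mul, z.2.2.1] at h1
  exact h1

theorem Im_vl (hια : ι α = α) :
    invo ι (vl α a b c) = -vl α a b c := by
  change Im ι (⟨0, mk4 (up E a) (up E b) α 1 0 0 0⟩ : OctL E a b c) = _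
  apply Oct.ext
  · change qmap ι (star 0) = -(0 : Qt (up E a) (up E b))
    rw [star_zero, qmap_zero, neg_zero]
  · change qmap ι (-mk4 (up E a) (up E b) α 1 0 0 0) = -mk4 (up E a) (up E b) α 1 0 0 0
    rw [qmap_neg, qmap_mk4 hια, map_zero, map_one]

variable (H : HyI ρ σ ι α a b c q)

include H

theorem exists_short1 (x : Qt (up L a) (q * up L b)) (hx : nrd x = 1) :
    ∃ z : ATI ρ σ ι α a b c q, z ∈ stab0I ρ σ ι α a b c q ∧ IsKapI ρ z.1 (1 : Lˣ) ∧
      ∀ y, z.1 y = shortFun ρ (psiL α q x) y := by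
  have h1 : nrd (1 : Qt a b) = 1 := by simp [nrd]
  obtain ⟨z, hz1, hz2, hz3⟩ := exists_z (c := c) H 1 x 1 (by
    rw [hx, h1]
    simp)
  refine ⟨z, hz1, hz2 1 (by rw [hx, Units.val_one, one_mul]), fun y => ?_⟩
  rw [hz3]
  apply Oct.ext
  · rfl
  · change (algebraMap L E (nrd x) * ρ (ρ (algebraMap L E (nrd x))) /
      algebraMap k E ((1 : kˣ) : k)) • (qup E 1 * y.snd * star (qmap ρ (psiL α q x))) =
        y.snd * star (qmap ρ (psiL α q x))
    have h2 : qup E (1 : Qt a b) = 1 := by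
      ext <;> simp [qup]
    rw [hx, h2, Units.val_one, map_one, map_one, map_one, map_one, mul_one, div_one, one_smul,
      one_mul]

/-- An element of norm one of `Q₁` which is not in `L(i)`. -/
theorem exists_x1 : ∃ x : Qt (up L a) (q * up L b), nrd x = 1 ∧
    (psiL α q x : Qt (up E a) (up E b)).imJ + (psiL α q x : Qt (up E a) (up E b)).imK * α ≠ 0 := by
  have : CharZero k := H.hcp.choose.charZero
  obtain ⟨τ, hτa, hτb, -, hτq⟩ := H.cp
  obtain ⟨w, hw⟩ := E6I.exists_real_over (L := L) H.h3 τ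
  have hwb : w (algebraMap k L b) < 0 := by
    have h0 : w (algebraMap k L b) = τ b := by rw [← hw]; rfl
    rw [h0]
    exact hτb
  have hq : 0 < w (q : L) := hτq w hw
  have e2 : ((q * up L b : Lˣ) : L) = q * algebraMap k L b := rfl
  have e1 : ((up L a : Lˣ) : L) = algebraMap k L a := rfl
  have hB : (1 : L) - (q : L) * algebraMap k L (b : k) ≠ 0 := by
    intro h0
    have h1 := congrArg w h0
    rw [map_sub, map_mul, map_one, map_zero] at h1
    nlinarith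
  have h2 : (2 : E) ≠ 0 := NeZero.ne _
  have h2L : (2 : L) ≠ 0 := by
    intro h0
    apply h2
    rw [← map_ofNat (algebraMap L E) 2, h0, map_zero]
  refine ⟨⟨(1 + (q : L) * algebraMap k L (b : k)) / (1 - (q : L) * algebraMap k L (b : k)), 0,
    2 / (1 - (q : L) * algebraMap k L (b : k)), 0⟩, ?_, ?_⟩
  · simp only [nrd, e1, e2]
    field_simp
    ring
  · obtain ⟨s, s', t, t', h3, h4⟩ := ex_mk4 (b := b) H.α2
      (psiL α q (⟨(1 + (q : L) * algebraMap k L (b : k)) / (1 - (q : L) * algebraMap k L (b : k)),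
        0, 2 / (1 - (q : L) * algebraMap k L (b : k)), 0⟩ : Qt (up L a) (q * up L b)))
    rw [← h4]
    have h5 := HyI.psiL_eq H (⟨(1 + (q : L) * algebraMap k L (b : k)) /
      (1 - (q : L) * algebraMap k L (b : k)), 0, 2 / (1 - (q : L) * algebraMap k L (b : k)), 0⟩ :
        Qt (up L a) (q * up L b))
    rw [h3] at h5
    obtain ⟨-, -, h6, -⟩ := mk4_inj H.α2 h5
    rw [h6]
    have hq0 : algebraMap L E (q : L) ≠ 0 :=
      (map_ne_zero_iff _ (algebraMap L E).injective).2 q.ne_zero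
    refine mul_ne_zero hq0 ?_
    rw [map_zero, zero_mul, add_zero]
    exact (map_ne_zero_iff _ (algebraMap L E).injective).2 (div_ne_zero h2L hB)

/-- **The base chain**, made of elements with multiplier one of the centralisers. -/
theorem exists_baseI [NeZero (2 : k)] : ∃ (y1 y2 y3 : ATI ρ σ ι α a b c q) (b' c' : kˣ)
    (j l : Oct a b c) (h : Trip a b' c' gi j l), y1 ∈ stab0I ρ σ ι α a b c q ∧
      y2 ∈ stabI ρ σ ι α q h ∧ y3 ∈ stab0I ρ σ ι α a b c q ∧ IsKapI ρ y1.1 (1 : Lˣ) ∧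
      IsKapI ρ y2.1 (1 : Lˣ) ∧ IsKapI ρ y3.1 (1 : Lˣ) ∧
      Nb ρ (y3.1 (vl α a b c)) (vl α a b c) ∧
      bil (y1.1 (y2.1 (y3.1 (vl α a b c)))) (vl α a b c) ≠ 0 ∧
      bil (y1.1 (y2.1 (vl α a b c))) (vl α a b c) = 0 ∧
      ∃ c0 : E, c0 ≠ 0 ∧ tri ρ (y1.1 (y2.1 (vl α a b c))) (vl α a b c) =
        c0 • y1.1 (vl α a b c) := by
  obtain ⟨x, hx, hT⟩ := exists_x1 (b := b) H
  obtain ⟨z, hz1, hz2, hz3⟩ := exists_short1 H x hx
  have H' := hyTripI H (trip_jl a b c)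
  obtain ⟨x', hx', hT'⟩ := exists_x1 H'
  obtain ⟨z', hz1', hz2', hz3'⟩ := exists_short1 H' x' hx'
  have n1 : nrd (psiL α q x : Qt (up E a) (up E b)) = 1 := by
    rw [HyI.nrd_psiL H, hx, map_one]
  have n2 : nrd (psiL α q x' : Qt (up E a) (up E (-(b * c)))) = 1 := by
    rw [HyI.nrd_psiL H', hx', map_one]
  have g1 : ∀ u v, z.1 (tri ρ u v) = tri ρ (z.1 u) (z.1 v) := fun u v => by
    rw [isKap_one hz2, Units.val_one, map_one, one_smul]
  have b1 : ∀ u v, bil (z.1 u) (z.1 v) = bil u v := fun u v => by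
    have h1 := bil_kap H.ρ3 (isKap_one hz2) u v
    rwa [Units.val_one, map_one, map_one, map_one, one_mul, one_mul] at h1
  have h2 : ∀ y : OctL E a (-(b * c)) c, (cjAI ρ σ ι α q (trip_jl a b c) z').1
      (tripO E (trip_jl a b c) y) = tripO E (trip_jl a b c) (shortFun ρ (psiL α q x') y) := by
    intro y
    change cjE (tripO E (trip_jl a b c)) z'.1 (tripO E (trip_jl a b c) y) = _
    rw [cj_apply, hz3']
  have key := base_chain (trip_jl a b c) H.ρ3 H.α2 H.ρα n1 n2 hT hT' hT hz3 h2 hz3 g1 b1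
  refine ⟨z, cjAI ρ σ ι α q (trip_jl a b c) z', z, _, _, _, _, trip_jl a b c, hz1,
    (cjAI_mem_stabI _).2 hz1', hz1, hz2, cj_isKapI _ hz2', hz2, ?_, key.1, key.2.1, key.2.2⟩
  obtain ⟨s, s', t, t', h3, -⟩ := ex_mk4 (b := b) H.α2 (psiL α q x : Qt (up E a) (up E b))
  rw [hz3, h3, sh_vl H.α2 H.ρα, sub_eq_add_neg, ← neg_smul]
  constructor
  · have := tri_vl_vl (a := a) (b := b) (c := c) H.α2 H.ρα (ρ s') (-ρ t) 1 0
    rwa [one_smul, zero_smul, add_zero] at this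
  · have := tri_vl_vl (a := a) (b := b) (c := c) H.α2 H.ρα 1 0 (ρ s') (-ρ t)
    rwa [one_smul, zero_smul, add_zero] at this

theorem pt_vlI : Pt ρ (vl α a b c) := by
  constructor
  · intro h0
    have h1 := congrArg (fun y : OctL E a b c => y.snd) h0
    have h2 : D4X.mk4 (up E a) (up E b) α 1 0 0 0 = D4X.mk4 (up E a) (up E b) α 0 0 0 0 := by
      rw [mk4_zero]
      exact h1
    exact one_ne_zero (mk4_inj H.α2 h2).1
  · have := tri_vl_vl (a := a) (b := b) (c := c) H.α2 H.ρα 1 0 1 0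
    rwa [one_smul, zero_smul, add_zero] at this

theorem hh_vlI_ne : hh ρ σ α q (vl α a b c) ≠ 0 := by
  have h1 := hh_line (ρ := ρ) (b := b) (c := c) (q := q) H.α2 H.σα 1 0
  rw [vl, h1, map_one, map_zero]
  have e1 : algebraMap L E (q : L) ≠ 0 := (map_ne_zero _).2 q.ne_zero
  have e2 : algebraMap k E (c : k) ≠ 0 := (map_ne_zero _).2 c.ne_zero
  have e3 : ρ (algebraMap L E (q : L)) ≠ 0 := (map_ne_zero_iff _ ρ.injective).2 e1
  rw [mul_zero, mul_zero, sub_zero, mul_one, mul_one]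
  exact mul_ne_zero (neg_ne_zero.2 e2) (mul_ne_zero e1 e3)

omit [NeZero (2 : E)] in
theorem isKapI_mul_one {y z : ATI ρ σ ι α a b c q} (hy : IsKapI ρ y.1 (1 : Lˣ))
    (hz : IsKapI ρ z.1 (1 : Lˣ)) : IsKapI ρ (y * z).1 (1 : Lˣ) := fun u v => by
  have h1 := hy (z.1 u) (z.1 v)
  have h2 := hz u v
  rw [Units.val_one, map_one, map_one, one_smul] at h1 h2 ⊢
  change y.1 (z.1 (tri ρ u v)) = _
  rw [h2, h1]
  rfl

/-- **The data of the base chain**, with the elements which make it: `p = g v₀`, `g` a product of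
elements with multiplier one of the centralisers. -/
theorem base_dataI [NeZero (2 : k)] : ∃ p u0 z0 : OctL E a b c,
    Pt ρ p ∧ invo ι p = -p ∧ Pt ρ u0 ∧ invo ι u0 = -u0 ∧ invo ι z0 = -z0 ∧ Nb ρ p u0 ∧
      (∀ t : E, u0 ≠ t • p) ∧ bil p (vl α a b c) ≠ 0 ∧
      bil u0 (vl α a b c) = 0 ∧ (∃ s : E, s ≠ 0 ∧ tri ρ u0 (vl α a b c) = s • z0) ∧
      hh ρ σ α q p = hh ρ σ α q (vl α a b c) ∧ hh ρ σ α q u0 = hh ρ σ α q (vl α a b c) ∧
      hh ρ σ α q z0 = hh ρ σ α q (vl α a b c) ∧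
      ∃ (y1 y2 y3 : ATI ρ σ ι α a b c q) (b' c' : kˣ) (j l : Oct a b c)
        (h : Trip a b' c' gi j l), y1 ∈ stab0I ρ σ ι α a b c q ∧ y2 ∈ stabI ρ σ ι α q h ∧
        y3 ∈ stab0I ρ σ ι α a b c q ∧ IsKapI ρ y1.1 (1 : Lˣ) ∧ IsKapI ρ y2.1 (1 : Lˣ) ∧
        IsKapI ρ y3.1 (1 : Lˣ) ∧ p = y1.1 (y2.1 (y3.1 (vl α a b c))) := by
  obtain ⟨y1, y2, y3, b', c', j, l, h, m1, m2, m3, k1, k2, k3, hn, c1, c2, c3⟩ := exists_baseI H
    (c := c)
  have hv := pt_vlI H (c := c) (b := b)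
  have hvI : invo ι (vl α a b c) = -vl α a b c := Im_vl H.ια
  have pt : ∀ {z : ATI ρ σ ι α a b c q} (_ : IsKapI ρ z.1 (1 : Lˣ)) {v : OctL E a b c},
      Pt ρ v → Pt ρ (z.1 v) := by
    intro z hz v hv
    refine ⟨fun h0 => hv.1 (z.1.injective (h0.trans (map_zero z.1).symm)), ?_⟩
    have h1 := hz v v
    rw [hv.2, map_zero, Units.val_one, map_one, map_one, one_smul] at h1
    exact h1.symm
  have nb : ∀ {z : ATI ρ σ ι α a b c q} (_ : IsKapI ρ z.1 (1 : Lˣ)) {v w : OctL E a b c},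
      Nb ρ v w → Nb ρ (z.1 v) (z.1 w) := by
    intro z hz v w hvw
    have h1 := hz v w
    have h2 := hz w v
    rw [hvw.1, map_zero, Units.val_one, map_one, map_one, one_smul] at h1
    rw [hvw.2, map_zero, Units.val_one, map_one, map_one, one_smul] at h2
    exact ⟨h1.symm, h2.symm⟩
  have im : ∀ (z : ATI ρ σ ι α a b c q) {v : OctL E a b c}, invo ι v = -v →
      invo ι (z.1 v) = -z.1 v := by
    intro z v hv
    have h1 : z.1 (invo ι v) = invo ι (z.1 v) := z.2.2.2 v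
    rw [← h1, hv, map_neg]
  have q1 : Pt ρ (y1.1 (y2.1 (y3.1 (vl α a b c)))) := pt k1 (pt k2 (pt k3 hv))
  have q2 : Pt ρ (y1.1 (y2.1 (vl α a b c))) := pt k1 (pt k2 hv)
  refine ⟨y1.1 (y2.1 (y3.1 (vl α a b c))), y1.1 (y2.1 (vl α a b c)), y1.1 (vl α a b c), q1,
    im y1 (im y2 (im y3 hvI)), q2, im y1 (im y2 hvI), im y1 hvI, nb k1 (nb k2 hn), ?_, c1, c2, c3,
    ?_, ?_, ?_, y1, y2, y3, b', c', j, l, h, m1, m2, m3, k1, k2, k3, rfl⟩
  · intro t ht
    have h1 : t = 0 := by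
      have h2 := c2
      rw [ht, bil_smul_left] at h2
      exact (mul_eq_zero.1 h2).resolve_right c1
    exact q2.1 (by rw [ht, h1, zero_smul])
  · rw [hh_one H.ρ3 y1 k1, hh_one H.ρ3 y2 k2, hh_one H.ρ3 y3 k3]
  · rw [hh_one H.ρ3 y1 k1, hh_one H.ρ3 y2 k2]
  · rw [hh_one H.ρ3 y1 k1]

end Vale.Agent.P011.D4Y.H408
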