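import Vale.Agent.P011.D4X.H69.NearGen
import Vale.Agent.P011.D4Y.H68.Nf
import Vale.Agent.P011.D4Y.H408.BaseI

/-!
Block D4Y: the stable singular elements near the standard one, from a step lemma.
-/

open Filter Topology NumberField
open scoped ComplexConjugate
open Vale.Agent.P011.MPQ Vale.Agent.P011.D4 Vale.Agent.P011.D4.Oct Vale.Agent.P011.D4.H24
open Vale.Agent.P011.E6 Vale.Agent.P011.D4X Vale.Agent.P011.D4X.H691 Vale.Agent.P011.D4X.H862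

set_option linter.unusedSectionVars false

namespace Vale.Agent.P011.D4Y.H408

variable {k L E : Type} [Field k] [Field L] [Field E] [Algebra k L] [Algebra k E]
  [Algebra L E] [IsScalarTower k L E] {ρ σ ι : E ≃ₐ[k] E} {α : E}
  {a b c : kˣ} {q : Lˣ} (H : HyI ρ σ ι α a b c q)

include H

theorem Bd_rhoI : ∀ W ∈ Bd ρ σ q, W.comp (ρ : E →+* E) ∈ Bd ρ σ q := by
  rintro W ⟨h1, h2⟩
  refine ⟨fun x => ?_, fun h3 => h2 ?_⟩
  · change W (ρ (σ x)) = conj (W (ρ x))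
    rw [← H.comm, h1]
  · obtain ⟨g1, g2, g3⟩ := h3
    change 0 < (W (ρ _)).re at g1
    change 0 < (W (ρ (ρ _))).re at g2
    change 0 < (W (ρ (ρ (ρ _)))).re at g3
    rw [H.ρ3] at g3
    exact ⟨g3, g1, g2⟩

theorem Bd_sigI : ∀ W ∈ Bd ρ σ q, W.comp (σ : E →+* E) ∈ Bd ρ σ q := by
  rintro W ⟨h1, h2⟩
  refine ⟨fun x => ?_, fun h3 => h2 ?_⟩
  · change W (σ (σ x)) = conj (W (σ x))
    rw [h1]
  · obtain ⟨g1, g2, g3⟩ := h3
    change 0 < (W (σ _)).re at g1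
    change 0 < (W (σ (ρ _))).re at g2
    change 0 < (W (σ (ρ (ρ _)))).re at g3
    rw [H.σL] at g1
    rw [H.comm, H.σL] at g2
    rw [H.comm, H.comm, H.σL] at g3
    exact ⟨g1, g2, g3⟩

theorem Bd_iotaI : ∀ W ∈ Bd ρ σ q, W.comp (ι : E →+* E) ∈ Bd ρ σ q := by
  rintro W ⟨h1, h2⟩
  refine ⟨fun x => ?_, fun h3 => h2 ?_⟩
  · change W (ι (σ x)) = conj (W (ι x))
    rw [← H.σι, h1]
  · obtain ⟨g1, g2, g3⟩ := h3
    change 0 < (W (ι _)).re at g1
    change 0 < (W (ι (ρ _))).re at g2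
    change 0 < (W (ι (ρ (ρ _)))).re at g3
    rw [H.ιL] at g1
    rw [H.ιρL'] at g2
    rw [H.ιρρL] at g3
    exact ⟨g3, g2, g1⟩

variable [NeZero (2 : E)]

theorem bJ_fixI (v : OctL E a b c) :
    σ (bil v (Jm ρ σ α q v)) = bil v (Jm ρ σ α q v) := by
  have h1 := H.bil_Jm v (Jm ρ σ α q v)
  rw [H.Jm_Jm, bil_smul_right, bil_comm (Jm ρ σ α q v) v] at h1
  have h2 : rr ρ q ≠ 0 := by
    rw [rr]
    have h3 : algebraMap L E (q : L) ≠ 0 := (map_ne_zero _).2 q.ne_zero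
    exact mul_ne_zero h3 (mul_ne_zero h3 ((map_ne_zero_iff ρ ρ.injective).2 h3))
  exact (mul_left_cancel₀ h2 h1).symm

theorem bJ_smulI (t : E) (v : OctL E a b c) :
    bil (t • v) (Jm ρ σ α q (t • v)) = t * σ t * bil v (Jm ρ σ α q v) := by
  rw [H.Jm_smul, bil_smul_left, bil_smul_right, mul_assoc]

/-- **The stable singular elements near the standard one**, from a step lemma. -/
theorem near_genI [NumberField k] [NeZero (2 : k)] {P : OctL E a b c → Prop}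
    (hsm : ∀ t : E, t ≠ 0 → ∀ v, P v → P (t • v))
    (hact : ∀ (z : ATI ρ σ ι α a b c q) (b' c' : kˣ) (j l : Oct a b c)
      (h : Trip a b' c' gi j l), z ∈ stabI ρ σ ι α q h → IsKapI ρ z.1 (1 : Lˣ) →
        ∀ v, P v → P (z.1 v))
    (step : ∀ v v' : OctL E a b c, Pt ρ v → (∃ μ : E, invo ι v = μ • v) → Pt ρ v' →
      (∃ μ : E, invo ι v' = μ • v') → Nb ρ v v' →
      (∀ W ∈ Bd ρ σ q, 0 < (W (bil v' (Jm ρ σ α q v') / bil v (Jm ρ σ α q v))).re) →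
        P v → P v')
    (h0 : P (ep α * oup E (gl : Oct a b c))) :
    ∀ᶠ v in nh (Bd ρ σ q) (ep α * oup E (gl : Oct a b c)), Pt ρ v →
      (∃ μ : E, invo ι v = μ • v) → P v := by
  have : NumberField E := H.numberField
  obtain ⟨p, u0, z0, c1, c1I, c2, c2I, c3I, c3, c4, c5, c6, ⟨s, hs, c7⟩, e1, e2, e3,
    y1, y2, y3, b', c', j, l, h, m1, m2, m3, k1, k2, k3, hp⟩ := base_dataI (c := c) H
  obtain ⟨δ, hδ, hδι⟩ : ∃ δ : E, δ ≠ 0 ∧ ι δ = -δ := by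
    obtain ⟨t, ht⟩ := H.ρL
    exact exists_delta H.ρ3 H.ι2 H.ιρ ht
  have hh0 : hh ρ σ α q (vl α a b c) ≠ 0 := hh_vlI_ne H
  have hone : ∀ {x : OctL E a b c}, hh ρ σ α q x = hh ρ σ α q (vl α a b c) →
      ∀ W ∈ Bd ρ σ q, 0 < (W (bil x (Jm ρ σ α q x) /
        bil (vl α a b c) (Jm ρ σ α q (vl α a b c)))).re := by
    intro x hx W _
    change 0 < (W (hh ρ σ α q x / hh ρ σ α q (vl α a b c))).re
    rw [hx, div_self hh0, map_one, Complex.one_re]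
    exact one_pos
  have hstd : Trip a b c (gi : Oct a b c) gj gl := trip_std
  rw [← vl_eq] at h0 ⊢
  have hP : P p := by
    rw [hp]
    refine hact y1 b c gj gl hstd ?_ k1 _ (hact y2 b' c' j l h m2 k2 _
      (hact y3 b c gj gl hstd ?_ k3 _ h0))
    · rw [stabI_std]
      exact m1
    · rw [stabI_std]
      exact m3
  exact near_genI_of (Set.toFinite _) (Bd_rhoI H) (Bd_sigI H) (Bd_iotaI H)
    (fun W hW => hW.1) H.ρ3 H.ι2 H.ιρ hδ hδι (bJ_fixI H) (bJ_smulI H) hsm step c1 c1I c2 c2I c3 c4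
    c5 (Im_vl H.ια) c6 hs c7 c3I hh0 (hone e1) (hone e2) (hone e3) hP

end Vale.Agent.P011.D4Y.H408
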